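import Vale.Agent.P167.N.Kit
import Vale.Agent.P167.N.H542.Q.Fam
import Vale.Agent.P167.H852.Q.Y2

/-! The version of `Vale.Agent.P167.H852.Q.Y2` for `0 < q < 1`. -/

set_option autoImplicit false

namespace Vale.Agent.P167.N.H852.Q

open Vale.Agent.P167.H852.Q Vale.Agent.P167.H852

open Finset Filter Topology Relation Vale.Agent.P167.BR Vale.Agent.P167.FK

open Vale.Agent.P167.E6 (IsPolygon Encloses)

open Vale.Agent.P167.H45 (vs_nonempty)

open Vale.Agent.P167.H167 (tot isSeg)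

open Vale.Agent.P167.H562.SML

open Vale.Agent.P167.H562.MAJ (Sm sum_G bigs near_site fsum_eq)

open Vale.Agent.P167.H562.QM (BumpsQ MajA YQ YQ_mom Nr oneC_sub)

open Vale.Agent.P167.H436 (ero mem_ero ero_sub econ_ero econ_enl cells_conn mem_enl)

open Vale.Agent.P167.H542.Q (BD cB cB_pos)

open Vale.Agent.P167.H365.NQ (XW TW)

open Vale.Agent.P167.H718 (Dob wn wn' wn_eq IsCl)

open Vale.Agent.P167.H760.Q (MajY Fp MajN)

open Vale.Agent.P167.CA (cms)

open Vale.Agent.P167.QX (wB wB_zero wQ wQ_strand stag)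

section

variable {θ β : ℝ} {n k : ℕ} {q : ZMod n → ℤ × ℤ} {D : Finset (ℤ × ℤ)} {ω : Cfg} {A : Finset Ed}
  {f : ℤ × ℤ → ℝ}

theorem abs_wB_le (h0 : 0 < θ) (h1 : Ang θ) (hβ : Real.cos (θ / 2 + β) = Real.sin θ)
    (A : Finset Ed) (t : ℝ) : |wB θ β q D k A t| ≤ (cB θ)⁻¹ := by
  have h1_lt := h1.lt
  rw [← H542.Q.wR_thB hβ]
  unfold H542.Q.wR
  have h2 := (H542.Q.phs_thB (q := q) (D := D) (k := k) h0 h1 hβ).cs A
  have h3 := Vale.Agent.P167.N.H542.Q.cB_pos h0 h1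
  rw [abs_div, abs_of_pos (lt_of_lt_of_le h3 h2), div_eq_inv_mul]
  calc _ ≤ (cB θ)⁻¹ * 1 := mul_le_mul (inv_anti₀ h3 h2) (Real.abs_cos_le_one _) (abs_nonneg _)
        (inv_nonneg.2 h3.le)
    _ = _ := mul_one _

theorem abs_wn_le (h0 : 0 < θ) (h1 : Ang θ) (hβ : Real.cos (θ / 2 + β) = Real.sin θ)
    (hq : IsPolygon q) (hD : Encloses q D) (hA : A ∈ pcs ω D) :
    |wn θ β q D k f A| ≤ (cB θ)⁻¹ := by
  have h1_lt := h1.lt
  have hpi := Real.pi_pos
  rw [wn_eq hq hD (Real.sin_pos_of_pos_of_lt_pi h0 (by linarith)).ne'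
    (Real.cos_pos_of_mem_Ioo ⟨by linarith, by linarith⟩) hβ hA]
  exact abs_wB_le h0 h1 hβ A _

theorem abs_wn'_le (h0 : 0 < θ) (h1 : Ang θ) (hβ : Real.cos (θ / 2 + β) = Real.sin θ)
    (hq : IsPolygon q) (hD : Encloses q D) (hA : A ∈ pcs ω D) :
    |wn' θ β q D k f A| ≤ (cB θ)⁻¹ := by
  have h1_lt := h1.lt
  classical
  have hpi := Real.pi_pos
  have hs : 0 < Real.sin θ := Real.sin_pos_of_pos_of_lt_pi h0 (by linarith)
  have hc : 0 < Real.cos θ := Real.cos_pos_of_mem_Ioo ⟨by linarith, by linarith⟩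
  have h3 := Vale.Agent.P167.N.H542.Q.cB_pos h0 h1
  have h4 : 2 * cB θ ≤ |wQ θ q D (stag θ β q k) A 0| := by
    by_cases hl : IsLp D A
    · unfold wQ
      rw [if_pos hl, add_zero, abs_of_pos (by positivity)]
      have : cB θ ≤ Real.cos θ := min_le_left _ _
      linarith
    · rw [wQ_strand hq hD hA hl hs.ne' hc.ne', wB_zero hs.ne' hc.ne' hβ, mul_one]
      have : cB θ ≤ Real.sin θ := (min_le_right _ _).trans (min_le_left _ _)
      split_ifs
      · rw [abs_of_pos (by positivity)]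
        have h7 : cB θ ≤ Real.sin (2 * θ) := (min_le_right _ _).trans (min_le_right _ _)
        rw [Real.sin_two_mul] at h7
        linarith
      · rw [mul_one, abs_of_pos (by positivity)]
        linarith
  have h5 : |H718.Wt' θ q D (stag θ β q k) f A| ≤ 2 := by
    unfold H718.Wt' H718.wQ'
    split_ifs
    · rw [abs_mul, abs_of_pos (by norm_num : (0 : ℝ) < 2)]
      have := Real.abs_sin_le_one (θ + mass D (q 0) f A)
      linarith
    · rw [abs_mul, abs_of_pos (by norm_num : (0 : ℝ) < 2)]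
      have := Real.abs_sin_le_one (θ / 2 + stag θ β q k (QX.hi q A) - stag θ β q k (QX.lo q A) +
        mass D (q 0) f A)
      linarith
  unfold wn'
  rw [abs_div, div_le_iff₀ (by linarith)]
  calc _ ≤ (2 : ℝ) := h5
    _ = (cB θ)⁻¹ * (2 * cB θ) := by field_simp
    _ ≤ _ := mul_le_mul_of_nonneg_left h4 (inv_nonneg.2 h3.le)

end

variable {S : CA.Dat} {θ β : ℝ}

end Vale.Agent.P167.N.H852.Q
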