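import Vale.Agent.P167.N.Kit
import Vale.Agent.P167.N.Wd
import Vale.Agent.P167.N.H562.Q.MQ1
import Vale.Agent.P167.H852.Q.Y1

/-! The version of `Vale.Agent.P167.H852.Q.Y1` for `0 < q < 1`. -/

set_option autoImplicit false

namespace Vale.Agent.P167.N.H852.Q

open Vale.Agent.P167.H852.Q Vale.Agent.P167.H852

open Finset Filter Topology Relation Vale.Agent.P167.BR Vale.Agent.P167.FK

open Vale.Agent.P167.H45 (vs_nonempty)

open Vale.Agent.P167.H167 (tot isSeg)

open Vale.Agent.P167.H562.SML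

open Vale.Agent.P167.H562.MAJ (Sm sum_G mass_loop bigs nb1 near_site)

open Vale.Agent.P167.H562.QM (BumpsQ WtQ Far MajA YQ)

variable {ω : Cfg} {D Z Zb : Finset (ℤ × ℤ)} {p : ℤ × ℤ} {A : Finset Ed} {f : ℤ × ℤ → ℝ}
  {d b a M : ℝ}

open Classical in
/-- **The deterministic majorant, one charge.** -/
theorem det_one (hB : BumpsQ ({()} : Finset Unit) D p (fun _ => Z) (fun _ => Zb) (fun _ => f)
    (fun _ => d) (fun _ => True)) (ha0 : 0 < a) (ha1 : Ang a) (hM : (Real.cos a)⁻¹ ≤ M)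
    (hsl : ∀ (ω : Cfg) (ℓ : Finset Ed), IsLoop ω ℓ → Small d ℓ → |G f ℓ| ≤ dw a)
    {w : Finset Ed → ℝ} (hwl : ∀ A ∈ pcs ω D, IsLp D A → w A = H562.wt a (mass D p f A))
    (hwb : ∀ A ∈ pcs ω D, |w A| ≤ M) {T T' : Finset (Finset Ed)} (hTT : T ⊆ T')
    (hT : T' ⊆ pcs ω D)
    (hT' : ∀ A ∈ pcs ω D, IsLp D A → Small d A → G f A ≠ 0 → A ∈ T') {N : ℕ}
    (hN : (bigs D Zb d ω).card ≤ N) :
    ∏ A ∈ T, |w A| ≤ 3 ^ (T' \ T).card * (M ^ N * Real.exp (-(Real.tan a * Sm f d ω))) *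
      ∏ A ∈ T.filter (fun A => ¬ IsLp D A ∧ ¬ (Vz Zb A ∧ ¬ Small d A)), |w A| := by
  have ha1_lt := ha1.lt
  have hpi := Real.pi_pos
  have hca : 0 < Real.cos a := Real.cos_pos_of_mem_Ioo ⟨by linarith, by linarith⟩
  have hM1 : 1 ≤ M := ((one_le_inv₀ hca).2 (Real.cos_le_one a)).trans hM
  set wf : Finset Ed → ℝ → ℝ := fun A t => if IsLp D A then H562.wt a t else
    max (-M) (min M (w A)) with hwf
  have hW : Vale.Agent.P167.N.H562.QM.WtQ a M D wf := by
    refine ⟨ha0, ha1, hM1, fun A t hl => by simp only [hwf]; rw [if_pos hl], fun A t => ?_⟩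
    simp only [hwf]
    split_ifs with hl
    · unfold H562.wt
      rw [abs_div, abs_of_pos hca, div_eq_inv_mul]
      calc _ ≤ (Real.cos a)⁻¹ * 1 :=
            mul_le_mul_of_nonneg_left (Real.abs_cos_le_one (a + t)) (inv_nonneg.2 hca.le)
        _ ≤ M := by rwa [mul_one]
    · rw [abs_le]
      exact ⟨le_max_left _ _, max_le (by linarith) (min_le_left _ _)⟩
  have hmass : ∀ A : Finset Ed, mass D p (fun z => ∑ _j ∈ ({()} : Finset Unit), f z) A =
      mass D p f A := fun A => by simp only [sum_singleton]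
  have hwe : ∀ A ∈ pcs ω D, wf A (mass D p (fun z => ∑ _j ∈ ({()} : Finset Unit), f z) A) = w A := by
    intro A hA
    rw [hmass]
    simp only [hwf]
    split_ifs with hl
    · exact (hwl A hA hl).symm
    · have := abs_le.1 (hwb A hA)
      rw [min_eq_right this.2, max_eq_right this.1]
  have h := Vale.Agent.P167.N.H562.QM.BumpsQ.maj_det hB (ω := ω) hW
    (by
      intro j hj ω ℓ h1 h2
      have h3 := hsl ω ℓ h1 h2
      have h4 := dw_le' (θ := a)
      first
        | exact h3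
        | linarith) hTT hT (fun _ _ => trivial) (fun A hA hl _ _ hs hG =>
    hT' A hA hl hs hG)
  have e1 : ∏ A ∈ T, |wf A (mass D p (fun z => ∑ _j ∈ ({()} : Finset Unit), f z) A)| =
      ∏ A ∈ T, |w A| := prod_congr rfl fun A hA => by rw [hwe A (hT (hTT hA))]
  have e2 : ∏ A ∈ T.filter (Far ({()} : Finset Unit) D (fun _ => Zb) (fun _ => d)),
      |wf A (mass D p (fun z => ∑ _j ∈ ({()} : Finset Unit), f z) A)| =
      ∏ A ∈ T.filter (fun A => ¬ IsLp D A ∧ ¬ (Vz Zb A ∧ ¬ Small d A)), |w A| := by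
    refine prod_congr ?_ fun A hA => ?_
    · ext A
      rw [mem_filter, mem_filter]
      constructor
      · rintro ⟨h1, h2, h3⟩
        exact ⟨h1, h2, h3 () (mem_singleton_self _)⟩
      · rintro ⟨h1, h2, h3⟩
        exact ⟨h1, h2, fun _ _ => h3⟩
    · rw [hwe A (hT (hTT (mem_filter.1 hA).1))]
  rw [e1, e2, prod_singleton] at h
  refine h.trans (mul_le_mul_of_nonneg_right (mul_le_mul_of_nonneg_left ?_ (by positivity))
    (prod_nonneg fun _ _ => abs_nonneg _))
  -- the sum over the small loops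
  have hsm : ∑ ℓ ∈ smf (nb1 (fun _ : Unit => Z) (fun _ => d) ()) d ω, G f ℓ = Sm f d ω := by
    have hs := hB.supp () (mem_singleton_self _)
    refine sum_G (F := sites Z) (fun s h => hs s h) (fun s h v hv => ?_) ω
    obtain ⟨u, hu, h1⟩ := near_site (hs s h)
    refine mem_fat hu ?_
    have h2 := H562.MAJ.nm_tri v s u
    have h3 : (nm (v - u) : ℝ) ≤ nm (v - s) + nm (s - u) := by exact_mod_cast h2
    have h4 : (nm (s - u) : ℝ) ≤ 1 := by exact_mod_cast h1
    linarith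
  rw [hsm]
  exact mul_le_mul_of_nonneg_right (pow_le_pow_right₀ hM1 hN) (Real.exp_pos _).le

end Vale.Agent.P167.N.H852.Q
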