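import Vale.Agent.P167.N.Kit
import Vale.Agent.P167.N.H852.Q.Y2
import Vale.Agent.P167.N.H852.Q.Y2b
import Vale.Agent.P167.H852.Q.Y3

/-! The version of `Vale.Agent.P167.H852.Q.Y3` for `0 < q < 1`. -/

set_option autoImplicit false

namespace Vale.Agent.P167.N.H852.Q

open Vale.Agent.P167.H852.Q Vale.Agent.P167.H852

open Finset Filter Topology Relation Vale.Agent.P167.BR Vale.Agent.P167.FK

open Vale.Agent.P167.E6 (IsPolygon Encloses)

open Vale.Agent.P167.H167 (tot isSeg)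

open Vale.Agent.P167.H562.SML

open Vale.Agent.P167.H562.MAJ (Sm Sm_eq sum_G bigs near_site fsum_eq mem_fat_iff)

open Vale.Agent.P167.H562.QM (BumpsQ MajA YQ YQ_mom YQ_pos Nr oneC_sub)

open Vale.Agent.P167.H436 (ero mem_ero ero_sub econ_ero econ_enl cells_conn mem_enl)

open Vale.Agent.P167.H542.Dt

open Vale.Agent.P167.H542.Q (BD cB cB_pos)

open Vale.Agent.P167.H365.NQ (XW TW)

open Vale.Agent.P167.H718 (Dob wn wn' wn_eq IsCl)

open Vale.Agent.P167.H760.Q (MajY Fp MajN)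

open Vale.Agent.P167.CA (cms)

open Vale.Agent.P167.QX (wB wB_zero wQ wQ_strand stag)

variable {S : CA.Dat} {θ β : ℝ} {f : ℂ → ℝ}

section

variable {κ κ0 Mf R1 : ℝ} {n N : ℕ} {Z : Finset (ℤ × ℤ)} {k : ℤ} {q : ZMod N → ℤ × ℤ} {m : ℕ}

/-- The pointwise bounds hold for the natural functional. -/
theorem Zn.ptw (H : Zn S f κ κ0 Mf R1 n Z k) (hMf : 0 ≤ Mf) (h0 : 0 < θ) (h1 : Ang θ)
    (hβ : Real.cos (θ / 2 + β) = Real.sin θ) (hq : IsPolygon q) (hD : Encloses q (S.D n)) {M : ℝ}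
    (hdw : Mf / (n : ℝ) ^ 2 * (κ * n) ^ 2 ≤ dw θ) (hM : (cB θ)⁻¹ ≤ M) :
    PtW (S.D n) (q 0) Z Z (cms f (1 / (n : ℝ))) (κ * n) θ M
      (wn θ β q (S.D n) m (cms f (1 / (n : ℝ)))) (wn' θ β q (S.D n) m (cms f (1 / (n : ℝ))))
      (fun _ => False) := by
  have h1_lt := h1.lt
  have hpi := Real.pi_pos
  have hs : 0 < Real.sin θ := Real.sin_pos_of_pos_of_lt_pi h0 (by linarith)
  have hc : 0 < Real.cos θ := Real.cos_pos_of_mem_Ioo ⟨by linarith, by linarith⟩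
  have hn1 := H.n1
  have hκn := H.κn
  have hκn2 := H.κ0n
  have hk2 := H.k2
  have hbas := H542.Q.bas_poly hq hD
  have hB : BumpsQ ({()} : Finset Unit) (S.D n) (q 0) (fun _ => Z) (fun _ => Z)
      (fun _ => cms f (1 / (n : ℝ))) (fun _ => κ * n) (fun _ => True) :=
    bump_one H.sub Subset.rfl H.econ H.econD hbas.mem (fun ω A hA hl => XDL.W_base hq hD hA hl)
      H.supp (fun v hv w hw => H.near v hv w (by linarith)) (by positivity) H.bd H.sml H.tot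
  have hM2 : (Real.cos θ)⁻¹ ≤ M :=
    (inv_anti₀ (Vale.Agent.P167.N.H542.Q.cB_pos h0 h1) (min_le_left _ _)).trans hM
  refine ⟨hB, h0, h1, hM2, fun ω ℓ h1 h2 => (H542.G_bound' (by positivity) H.bd h1 h2).trans hdw,
    fun ω A hA hl => ?_, fun ω A hA => (abs_wn_le h0 h1 hβ hq hD hA).trans hM,
    fun ω A hA => (abs_wn'_le h0 h1 hβ hq hD hA).trans hM, fun _ _ _ _ _ _ h => h,
    fun ω A hA _ hl hV => ?_⟩
  · rw [wn_eq hq hD hs.ne' hc hβ hA]
    unfold wB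
    rw [if_pos hl]
    rfl
  · have hV' : ¬ Vz Z A := fun h => hV ⟨h, hB.strand (mem_singleton_self ()) hA hl h⟩
    rw [wn_eq hq hD hs.ne' hc hβ hA, mass_zero H.sub H.econ H.supp H.tot hV', wB_zero hs.ne' hc.ne' hβ,
      abs_one]

end

end Vale.Agent.P167.N.H852.Q
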