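import Vale.Agent.P167.N.Kit
import Vale.Agent.P167.N.H852.Q.Y3
import Vale.Agent.P167.N.FKA.All
import Vale.Agent.P167.N.H519.GLim
import Vale.Agent.P167.N.H542.Q.FamB
import Vale.Agent.P167.N.H562.Q.MQ1
import Vale.Agent.P167.N.H562.Q.MQ3
import Vale.Agent.P167.H852.Q.Y4

/-! The version of `Vale.Agent.P167.H852.Q.Y4` for `0 < q < 1`. -/

set_option autoImplicit false

namespace Vale.Agent.P167.N.H852.Q

open Vale.Agent.P167.H852.Q Vale.Agent.P167.H852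

open Finset Filter Topology Relation Vale.Agent.P167.BR Vale.Agent.P167.FK

open Vale.Agent.P167.E6 (IsPolygon Encloses)

open Vale.Agent.P167.H562.SML

open Vale.Agent.P167.H562.MAJ (Sm near_site fsum_eq mem_fat_iff)

open Vale.Agent.P167.H562.QM (MajA YQ YQ_mom YQ_pos Nr oneC_sub)

open Vale.Agent.P167.H436 (ero)

open Vale.Agent.P167.H542.Q (BD cB cB_pos)

open Vale.Agent.P167.H365.NQ (XW TW)

open Vale.Agent.P167.H718 (Dob wn wn')

open Vale.Agent.P167.H760.Q (MajY Fp MajN)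

open Vale.Agent.P167.CA (cms)

variable {S : CA.Dat} {θ β : ℝ} {f : ℂ → ℝ}

/-- The masses of the loops of small diameter. -/
theorem sml_dw {κ Mf n : ℝ} (hκ : 0 < κ) (hMf : 0 ≤ Mf) (hn : 0 < n) (h2 : κ ≤ 1 / (2 * (Mf + 1)))
    (h3 : κ ≤ dw θ / (Mf + 1)) : Mf / n ^ 2 * (κ * n) ^ 2 ≤ dw θ := by
  have e : Mf / n ^ 2 * (κ * n) ^ 2 = Mf * κ * κ := by field_simp
  rw [e]
  have h4 : (Mf + 1) * κ ≤ dw θ := by
    have := mul_le_mul_of_nonneg_left h3 (by linarith : (0 : ℝ) ≤ Mf + 1)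
    refine this.trans (le_of_eq ?_)
    field_simp
  have h5 : (Mf + 1) * κ ≤ 1 / 2 := by
    have := mul_le_mul_of_nonneg_left h2 (by linarith : (0 : ℝ) ≤ Mf + 1)
    refine this.trans (le_of_eq ?_)
    field_simp
  have h6 : 0 ≤ Mf * κ := mul_nonneg hMf hκ.le
  have h7 : κ ≤ 1 := by linarith
  nlinarith

/-- **Majorants of the natural functionals.** -/
theorem majN (h0 : 0 < θ) (h1 : Ang θ) (hβ : Real.cos (θ / 2 + β) = Real.sin θ)
    (hRSW : RSW (2 * Real.cos θ)) (X : BD S θ β) (hf : S.FF f) : MajN X f := by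
  have h1_lt := h1.lt
  classical
  intro δ hδ
  have hQ1 : Kit (2 * Real.cos θ) := h1.kit
  have hQ0 : 0 < 2 * Real.cos θ := hQ1.pos
  have ht0 : 0 ≤ Real.tan θ := (Real.tan_pos_of_pos_of_lt_pi_div_two h0 h1_lt).le
  obtain ⟨κ0, Mf, R1, hκ0, hMf0, hR1, hZn⟩ := exists_zn hf
  have hdw := dw_pos h1_lt
  obtain ⟨κ, hκ, hκ1, hκ2, hκ3⟩ : ∃ κ : ℝ, 0 < κ ∧ κ ≤ κ0 / 80 ∧ κ ≤ 1 / (2 * (Mf + 1)) ∧
      κ ≤ dw θ / (Mf + 1) :=
    ⟨min (κ0 / 80) (min (1 / (2 * (Mf + 1))) (dw θ / (Mf + 1))), by positivity, min_le_left _ _,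
      (min_le_right _ _).trans (min_le_left _ _), (min_le_right _ _).trans (min_le_right _ _)⟩
  obtain ⟨M, hM2, hM⟩ : ∃ M : ℝ, 2 ≤ M ∧ (cB θ)⁻¹ ≤ M := ⟨max 2 _, le_max_left _ _, le_max_right _ _⟩
  obtain ⟨al, Ca, hal, hCa, hArm, -⟩ := hQ1.arm
  obtain ⟨P, hP⟩ := Vale.Agent.P167.N.H519.exists_lim hQ1 hal hArm
  obtain ⟨ε, C, ρ0, hε, hC, hρ0, H⟩ := Vale.Agent.P167.N.H562.QM.YQ_mom hQ1 hRSW hP κ (R1 + 1) (Mf + 1) 1 M
    (Real.tan θ) 0 hκ (by linarith) (by linarith) zero_le_one (by linarith) ht0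
  refine ⟨κ0 / 8, 3 * M * C, by positivity, by positivity, ?_⟩
  have hev : ∀ᶠ n : ℕ in atTop, max ρ0 (1 / δ) ≤ (n : ℝ) :=
    tendsto_natCast_atTop_atTop.eventually_ge_atTop _
  filter_upwards [X.poly, X.enc, (hZn κ0 hκ0 le_rfl κ hκ hκ1 hκ2).filter_mono X.le,
    hev.filter_mono X.le] with n hq hD hZ hn z hz R hR η hη
  obtain ⟨Z, hZe⟩ : ∃ Z, Z = ero S.Q n ⌊κ0 * (n : ℝ)⌋ := ⟨_, rfl⟩
  rw [← hZe] at hZ
  have hnδ : 1 ≤ δ * n := by
    have : 1 / δ ≤ n := (le_max_right _ _).trans hn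
    rw [div_le_iff₀ hδ] at this
    linarith
  obtain ⟨N, hN1, hN2, hN3⟩ := H n ((le_max_left _ _).trans hn) 0 (fat Z 1)
    (fun v hv => hZ.rad' hv) (fun i => i.elim0)
  have hP := Zn.ptw hZ (m := X.k n) hMf0 h0 h1 hβ hq hD
    (sml_dw hκ hMf0 (by have := hZ.n1; linarith) hκ2 hκ3) hM
  have hY0 : ∀ ω, 0 < YQ M (Real.tan θ) N (cms f (1 / (n : ℝ))) (κ * n) ω :=
    fun ω => YQ_pos (by linarith) _ _ _ _ _
  have hT1 : ∀ ω, TIn (S.D n) (wn θ β (X.q n) (S.D n) (X.k n) (cms f (1 / (n : ℝ))))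
      (fun _ => False) ω = 1 := fun ω => by
    unfold TIn
    simp
  refine ⟨fun ω => 3 * M * YQ M (Real.tan θ) N (cms f (1 / (n : ℝ))) (κ * n) ω, ?_, ?_, ?_, ?_⟩
  · -- the window
    intro ω ω' hw
    have e1 : N ω = N ω' := hN1 ω ω' fun v hv _ => hw v (hZ.win hz hnδ hR (by
      obtain ⟨u, hu, h⟩ := hZ.nrk hv
      exact ⟨u, hu, by have := hZ.κn; linarith⟩))
    have e2 : Sm (cms f (1 / (n : ℝ))) (κ * n) ω = Sm (cms f (1 / (n : ℝ))) (κ * n) ω' :=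
      Sm_congr hZ.supp fun v hv => hw v (hZ.win hz hnδ hR hv)
    show 3 * M * YQ M (Real.tan θ) N (cms f (1 / (n : ℝ))) (κ * n) ω =
      3 * M * YQ M (Real.tan θ) N (cms f (1 / (n : ℝ))) (κ * n) ω'
    unfold YQ
    rw [e1, e2]
  · intro ω
    refine (hP.XW_le (fun ω => card_bigs (hN2 ω)) ω).trans ?_
    rw [hT1, one_mul]
    have := hY0 ω
    exact le_mul_of_one_le_left this.le (by linarith)
  · intro ω A hA _
    have h2 := hP.TW_le (fun ω => card_bigs (hN2 ω)) hA (fun h => h)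
    rwa [hT1, one_mul] at h2
  · -- the moment
    rw [FKA.Ex_mul_left]
    refine mul_le_mul_of_nonneg_left ?_ (by linarith)
    have h2 := hN3 (S.D n) η hη.good (fun y a _ hy => oneC_sub fun v hv => by
        obtain ⟨u, hu, h⟩ := hZ.nrk (hy v hv)
        refine hZ.near u hu v ?_
        have h3 := hZ.κn
        have h4 := hZ.κ0n
        have h5 := hZ.k2
        linarith) (cms f (1 / (n : ℝ))) hZ.bd1 (fun z hz => hZ.rads hz)
      (fun z hz v hv => hZ.nbh hz hv)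
      (fun _ => 1) (fun _ => zero_le_one) (fun _ _ _ => rfl) (Real.tan θ) 1 ht0 le_rfl zero_le_one
      le_rfl
    rw [hZ.sum0, mul_zero, zero_mul, neg_zero, Real.exp_zero, mul_one, FKA.Ex_const hQ0,
      mul_one] at h2
    simpa only [one_mul, Real.rpow_one] using h2

end Vale.Agent.P167.N.H852.Q
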