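import Vale.Agent.P167.N.Kit
import Vale.Agent.P167.N.H562.Q.MQ3
import Vale.Agent.P167.H852.Q.Y5d

/-! The version of `Vale.Agent.P167.H852.Q.Y5d` for `0 < q < 1`. -/

set_option autoImplicit false

namespace Vale.Agent.P167.N.H852.Q

open Vale.Agent.P167.H852.Q Vale.Agent.P167.H852

open Finset Filter Topology Relation Vale.Agent.P167.BR Vale.Agent.P167.FK

open Vale.Agent.P167.E6 (IsPolygon Encloses face)

open Vale.Agent.P167.H167 (tot isSeg)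

open Vale.Agent.P167.H562.SML

open Vale.Agent.P167.H562.MAJ (Sm Sm_eq sum_G bigs near_site fsum_eq mem_fat_iff)

open Vale.Agent.P167.H562.QM (BumpsQ MajA YQ YQ_mom YQ_pos Nr oneC_sub ex_cs)

open Vale.Agent.P167.H601.LG (Spe wJ GeoN SepL nm_of_Bq)

open Vale.Agent.P167.H975 (TX TX_loc)

open Vale.Agent.P167.H519 (IsLim)

variable {D Z : Finset (ℤ × ℤ)} {h : ℤ × ℤ → ℝ} {κ κ0 Mf R1 θ β M : ℝ} {n N m : ℕ} {k r : ℤ}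
  {q : ZMod N → ℤ × ℤ} {τ : ℕ → ℤ} {ω : Cfg}

/-- **The moments of the small loops**, with the factor `G`. -/
theorem sm_mom {Q : ℝ} {P : MeasureTheory.Measure Cfg} (hQ : Kit Q) (hR0 : RSW Q) (hP : IsLim Q P)
    (κ R1 Mf T : ℝ) (hκ : 0 < κ) (hR : 0 ≤ R1) (hMf : 0 ≤ Mf) (hT : 0 ≤ T) : ∃ C ρ0 : ℝ, 0 < C ∧ 1 ≤ ρ0 ∧
    ∀ (n : ℕ), ρ0 ≤ n → ∀ (D Z : Finset (ℤ × ℤ)) (h : ℤ × ℤ → ℝ) (κ0 : ℝ) (k : ℤ),
      ZG D h κ κ0 Mf R1 n Z k → ∀ η : Cfg, Good η → ∀ G : Cfg → ℝ, (∀ ω, 0 ≤ G ω) →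
      (∀ ω ω' : Cfg, (∀ v, ¬ (v ∈ D ∧ ∃ z, h z ≠ 0 ∧ (nm (v - z) : ℝ) ≤ 33 * κ * n) →
        ω v = ω' v) → G ω = G ω') → ∀ t : ℝ, 0 ≤ t → t ≤ T →
      Ex Q D η (fun ω => G ω * Real.exp (-(t * Sm h (κ * n) ω)) ^ 2) ≤ C * Ex Q D η G := by
  obtain ⟨ε, C, ρ0, hε, hC, hρ0, H⟩ := Vale.Agent.P167.N.H562.QM.YQ_mom hQ hR0 hP κ (R1 + 1) (Mf + 1) 2 1
    T 0 hκ (by linarith) (by linarith) (by norm_num) le_rfl hT
  refine ⟨C, ρ0, hC, hρ0, fun n hn D Z h κ0 k hZ η hη G hG0 hG t ht0 ht2 => ?_⟩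
  obtain ⟨N, -, -, hN3⟩ := H n hn 0 ∅ (fun v hv => absurd hv (by simp)) (fun i => i.elim0)
  have h3 := hN3 D η hη (fun y a ha hy => by
      obtain ⟨u, hu, -⟩ := hy y (by
        rw [H166.mem_bxx, sub_self]
        have : nm (0 : ℤ × ℤ) = 0 := by simp [nm]
        omega)
      simp at hu) h hZ.bd1 (fun z hz => hZ.rads hz)
    (fun z hz v hv => hZ.nbh hz hv) G hG0 (fun ω ω' hw => hG ω ω' fun v hv => hw v fun hv' => hv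
      ⟨hv'.1, hv'.2.resolve_left (by rintro ⟨u, hu, -⟩; simp at hu)⟩) t 2 ht0 ht2 (by norm_num) le_rfl
  rw [hZ.sum0, mul_zero, zero_mul, neg_zero, Real.exp_zero, mul_one] at h3
  refine le_trans (le_of_eq ?_) h3
  congr 1
  funext ω
  unfold YQ
  rw [one_pow, one_mul, Real.rpow_ofNat]

end Vale.Agent.P167.N.H852.Q
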