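import Vale.Agent.P167.N.Kit
import Vale.Agent.P167.N.H601.LG.Trig
import Vale.Agent.P167.N.H601.LG.Wt
import Vale.Agent.P167.N.H852.Q.Y2
import Vale.Agent.P167.N.H852.Q.Y2b
import Vale.Agent.P167.H852.Q.Y5b

/-! The version of `Vale.Agent.P167.H852.Q.Y5b` for `0 < q < 1`. -/

set_option autoImplicit false

namespace Vale.Agent.P167.N.H852.Q

open Vale.Agent.P167.H852.Q Vale.Agent.P167.H852

open Finset Filter Topology Relation Vale.Agent.P167.BR Vale.Agent.P167.FK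

open Vale.Agent.P167.E6 (IsPolygon Encloses face)

open Vale.Agent.P167.H167 (tot isSeg)

open Vale.Agent.P167.H562.SML

open Vale.Agent.P167.H562.MAJ (Sm Sm_eq sum_G bigs near_site fsum_eq mem_fat_iff)

open Vale.Agent.P167.H562.QM (BumpsQ MajA YQ YQ_mom YQ_pos Nr oneC_sub)

open Vale.Agent.P167.H542.Q (BD cB cB_pos)

open Vale.Agent.P167.H365.NQ (XW TW)

open Vale.Agent.P167.H718 (Dob wn wn' wn_eq IsCl rc gch mass_add mass_gch_loop mass_gch_strand imC)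

open Vale.Agent.P167.H871 (Bd)

open Vale.Agent.P167.H601.LG (Spe wJ GeoN SepL large_of_ne_one nm_of_Bq wJ_lp)

open Vale.Agent.P167.H975 (TX)

open Vale.Agent.P167.QX (wB wB_zero lo hi)

variable {D Z : Finset (ℤ × ℤ)} {h : ℤ × ℤ → ℝ} {κ κ0 Mf R1 θ β M : ℝ} {n N m : ℕ} {k r : ℤ}
  {q : ZMod N → ℤ × ℤ} {τ : ℕ → ℤ} {ω : Cfg} {A : Finset Ed}

section

variable (hq : IsPolygon q) (hD : Encloses q D)

include hq hD

/-- Pieces without mass have the weight `wJ`. -/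
theorem wn_cI (h0 : 0 < θ) (h1 : Ang θ) (hβ : Real.cos (θ / 2 + β) = Real.sin θ)
    (hA : A ∈ pcs ω D) (hm : mass D (q 0) h A = 0) :
    wn θ β q D m (cI θ β τ q m h) A = wJ θ β q D m τ A := by
  have h1_lt := h1.lt
  have hs := H601.LG.sin_pos' h0 h1
  have hc : 0 < Real.cos θ := Real.cos_pos_of_mem_Ioo ⟨by linarith [Real.pi_pos], by
    linarith [Real.pi_pos]⟩
  rw [wn_eq hq hD hs.ne' hc hβ hA]
  by_cases hl : IsLp D A
  · rw [mass_cI_lp hq hD hA hl, hm, wB_zero hs.ne' hc.ne' hβ, wJ_lp hq hD hA hl hc.ne']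
  · rw [mass_cI_st hq hD hA hl, hm, zero_add]
    rfl

/-- Loops. -/
theorem wn_cI_lp (h0 : 0 < θ) (h1 : Ang θ) (hβ : Real.cos (θ / 2 + β) = Real.sin θ)
    (hA : A ∈ pcs ω D) (hl : IsLp D A) :
    wn θ β q D m (cI θ β τ q m h) A = H562.wt θ (mass D (q 0) h A) := by
  have h1_lt := h1.lt
  have hs := H601.LG.sin_pos' h0 h1
  have hc : 0 < Real.cos θ := Real.cos_pos_of_mem_Ioo ⟨by linarith [Real.pi_pos], by
    linarith [Real.pi_pos]⟩
  rw [wn_eq hq hD hs.ne' hc hβ hA, mass_cI_lp hq hD hA hl]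
  unfold wB
  rw [if_pos hl]
  rfl

/-- **The pointwise bounds hold for the parity image.** -/
theorem ZG.ptw (H : ZG D h κ κ0 Mf R1 n Z k) (hMf : 0 ≤ Mf) (h0 : 0 < θ) (h1 : Ang θ)
    (hβ : Real.cos (θ / 2 + β) = Real.sin θ) (hG : GeoN n N q τ)
    (hdw : Mf / (n : ℝ) ^ 2 * (κ * n) ^ 2 ≤ dw θ) (hM : (cB θ)⁻¹ ≤ M) (hr : r ≤ n) (hκr : κ * n ≤ (r : ℝ) / 16)
    (hrk : (r : ℝ) + (κ * n + 1) + 1 ≤ k) :
    PtW D (q 0) Z D h (κ * n) θ M (wn θ β q D m (cI θ β τ q m h))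
      (wn' θ β q D m (cI θ β τ q m h)) (InB q τ m r) := by
  have h1_lt := h1.lt
  have hn1 := H.n1
  have hκn := H.κn
  have hκn2 := H.κ0n
  have hk2 := H.k2
  have hbas := H542.Q.bas_poly hq hD
  have hB : BumpsQ ({()} : Finset Unit) D (q 0) (fun _ => Z) (fun _ => D)
      (fun _ => h) (fun _ => κ * n) (fun _ => True) :=
    bump_one H.sub H.sub H.econ H.econD hbas.mem (fun ω A hA hl => XDL.W_base hq hD hA hl)
      H.supp (fun v hv w hw => H.near v hv w (by linarith)) (by positivity) H.bd H.sml H.tot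
  have hM2 : (Real.cos θ)⁻¹ ≤ M :=
    (inv_anti₀ (Vale.Agent.P167.N.H542.Q.cB_pos h0 h1) (min_le_left _ _)).trans hM
  refine ⟨hB, h0, h1, hM2, fun ω ℓ h1 h2 => (H542.G_bound' (by positivity) H.bd h1 h2).trans hdw,
    fun ω A hA hl => wn_cI_lp hq hD h0 h1 hβ hA hl,
    fun ω A hA => (abs_wn_le h0 h1 hβ hq hD hA).trans hM,
    fun ω A hA => (abs_wn'_le h0 h1 hβ hq hD hA).trans hM, fun ω A hA hl hs hGA hI => ?_,
    fun ω A hA hI hl hV => ?_⟩
  · obtain ⟨v, hv, hw⟩ := hB.near (mem_singleton_self ()) (BR.IsLp.isLoop hA hl) hs hGA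
    obtain ⟨j, -, -, hj⟩ := hI
    obtain ⟨e, he⟩ := pcs_nonempty hA
    have h2 := H.far_q hq hD hrk hv (hj e he)
    have h3 := hw _ (mem_image_of_mem _ he)
    linarith
  · have hsm : Small (κ * n) A := by
      by_contra hc
      exact hV ⟨vz_self hA, hc⟩
    have hV' : ¬ Vz Z A := fun h' => hB.strand (mem_singleton_self ()) hA hl h' hsm
    rw [wn_cI hq hD h0 h1 hβ hA (mass_zero H.sub H.econ H.supp H.tot hV')]
    by_contra hc
    have hne : wJ θ β q D m τ A ≠ 1 := fun h' => hc (by rw [h', abs_one])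
    obtain ⟨e, he, e', he', hbig⟩ := Vale.Agent.P167.N.H601.LG.large_of_ne_one h0 h1 hG hq hD hA hne hr
      fun j hj hs hin => hI ⟨j, hj, hs, hin⟩
    have h5 := hsm _ (mem_image_of_mem _ he) _ (mem_image_of_mem _ he')
    linarith

/-- The product over the boxes. -/
theorem TIn_eq (H : ZG D h κ κ0 Mf R1 n Z k) (h0 : 0 < θ) (h1 : Ang θ)
    (hβ : Real.cos (θ / 2 + β) = Real.sin θ) (hG : GeoN n N q τ) {L : ℕ} (hS : SepL L N τ m)
    (hr0 : 0 ≤ r) (hrn : 6 * r < n) (hrL : 4 * r < L) (hrk : (r : ℝ) + 1 + 1 ≤ k) (ω : Cfg) :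
    TIn D (wn θ β q D m (cI θ β τ q m h)) (InB q τ m r) ω = |TPs θ β q D m τ r ω| := by
  have h1_lt := h1.lt
  classical
  unfold TIn TPs TX
  rw [abs_prod]
  simp only [abs_prod]
  rw [← prod_biUnion]
  · have e1 : (pcs ω D).filter (InB q τ m r) = ((range N).filter (Spe τ m)).biUnion fun j =>
        (pcs ω D).filter fun A => ∀ e ∈ A, hdv e ∈ Bq (q (j : ZMod N)) r := by
      ext A
      rw [mem_filter, mem_biUnion]
      constructor
      · rintro ⟨hA, j, hj, hs, hin⟩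
        exact ⟨j, mem_filter.2 ⟨mem_range.2 hj, hs⟩, mem_filter.2 ⟨hA, hin⟩⟩
      · rintro ⟨j, hj, hA⟩
        obtain ⟨hj1, hj2⟩ := mem_filter.1 hj
        obtain ⟨hA1, hA2⟩ := mem_filter.1 hA
        exact ⟨hA1, j, mem_range.1 hj1, hj2, hA2⟩
    rw [e1]
    refine prod_congr rfl fun A hA => ?_
    have hA' : A ∈ (pcs ω D).filter (InB q τ m r) := by rw [e1]; exact hA
    obtain ⟨hA1, hA2⟩ := mem_filter.1 hA'
    rw [wn_cI hq hD h0 h1 hβ hA1 (H.mass_in hq hD hrk hA2)]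
  · -- the boxes are disjoint
    have key : ∀ i j : ℕ, i < j → j < N → Spe τ m i → Spe τ m j → ∀ A ∈ pcs ω D,
        (∀ e ∈ A, hdv e ∈ Bq (q (i : ZMod N)) r) → ¬ ∀ e ∈ A, hdv e ∈ Bq (q (j : ZMod N)) r := by
      intro i j hij hjN hi hj A hA h2 h3
      obtain ⟨e, he⟩ := pcs_nonempty hA
      have h4 := nm_of_Bq (h2 e he)
      have h5 := nm_of_Bq (h3 e he)
      have h6 : nm (q (i : ZMod N) - q (j : ZMod N)) ≤ 2 * r := by
        have h7 := H601.LG.nm_tri' (q (i : ZMod N)) (hdv e) (q (j : ZMod N))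
        rw [H601.LG.nm_comm (q (i : ZMod N)) (hdv e)] at h7
        linarith
      obtain ⟨s1, s2⟩ := hS i j hij hjN hi hj
      rcases hG.near (by omega) hjN.le (d := 2 * r) (by linarith) h6 with h7 | h7
      · rcases abs_cases ((i : ℤ) - j) with ⟨a1, a2⟩ | ⟨a1, a2⟩ <;> rw [a1] at h7 <;> omega
      · rcases abs_cases ((i : ℤ) - j) with ⟨a1, a2⟩ | ⟨a1, a2⟩ <;> rw [a1] at h7 <;> omega
    intro i hi j hj hij
    rw [coe_filter, Set.mem_ofPred_eq, mem_range] at hi hj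
    rw [Function.onFun, Finset.disjoint_left]
    intro A hA hA'
    obtain ⟨h2, h3⟩ := mem_filter.1 hA
    obtain ⟨-, h4⟩ := mem_filter.1 hA'
    rcases Nat.lt_or_gt_of_ne hij with h5 | h5
    · exact key i j h5 hj.1 hi.2 hj.2 A h2 h3 h4
    · exact key j i h5 hi.1 hj.2 hi.2 A h2 h4 h3

end

end Vale.Agent.P167.N.H852.Q
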