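import Vale.Agent.P167.N.Kit
import Vale.Agent.P167.N.H542.Q.FamB
import Vale.Agent.P167.N.H852.Q.Y5b
import Vale.Agent.P167.H852.Q.Y5e

/-! The version of `Vale.Agent.P167.H852.Q.Y5e` for `0 < q < 1`. -/

set_option autoImplicit false

namespace Vale.Agent.P167.N.H852.Q

open Vale.Agent.P167.H852.Q Vale.Agent.P167.H852

open Finset Filter Topology Relation Vale.Agent.P167.BR Vale.Agent.P167.FK

open Vale.Agent.P167.E6 (IsPolygon Encloses face)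

open Vale.Agent.P167.H562.SML

open Vale.Agent.P167.H562.MAJ (Sm Sm_eq sum_G bigs near_site fsum_eq mem_fat_iff)

open Vale.Agent.P167.H562.QM (MajA YQ YQ_mom YQ_pos Nr oneC_sub ex_cs)

open Vale.Agent.P167.H436 (ero)

open Vale.Agent.P167.H542.Q (BD cB cB_pos)

open Vale.Agent.P167.H365.NQ (XW TW)

open Vale.Agent.P167.H718 (Dob wn wn' wn_eq imC lam lam_pos poly_add encl_add bd_add)

open Vale.Agent.P167.H871 (Bd)

open Vale.Agent.P167.H601.LG (Spe wJ GeoN SepL nm_of_Bq geoN_enl)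

open Vale.Agent.P167.H975 (TX TX_loc)

open Vale.Agent.P167.H519 (IsLim)

open Vale.Agent.P167.H760.Q (MajY Fp MajI BaseQ JunQ)

open Vale.Agent.P167.CA (cms)

section

variable {D Z : Finset (ℤ × ℤ)} {h : ℤ × ℤ → ℝ} {κ κ0 Mf R1 θ β M : ℝ} {n N m : ℕ} {k r : ℤ}
  {q : ZMod N → ℤ × ℤ} {τ : ℕ → ℤ} {ω : Cfg}

/-- The majorant of the parity image at one scale. -/
theorem ZG.majY (H : ZG D h κ κ0 Mf R1 n Z k) (hMf : 0 ≤ Mf) (h0 : 0 < θ) (h1 : Ang θ)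
    (hβ : Real.cos (θ / 2 + β) = Real.sin θ) (hq : IsPolygon q) (hD : Encloses q D)
    (hG : GeoN n N q τ) {L : ℕ} (hS : SepL L N τ m)
    (hdw : Mf / (n : ℝ) ^ 2 * (κ * n) ^ 2 ≤ dw θ) (hM2 : 2 ≤ M) (hM : (cB θ)⁻¹ ≤ M) (hr0 : 0 ≤ r) (hrn : 6 * r < n) (hrL : 4 * r < L)
    (hκr : κ * n ≤ (r : ℝ) / 16) (hrk : (r : ℝ) + (κ * n + 1) + 1 ≤ k)
    {z : ℤ × ℤ} {R : ℤ} (hf3 : ∀ j < N, Spe τ m j → 3 * R + r < nm (q (j : ZMod N) - z))
    (hf1 : ∀ j < N, Spe τ m j → R + r < nm (q (j : ZMod N) - z))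
    (hwin : ∀ v : ℤ × ℤ, (∃ u ∈ Z, (nm (v - u) : ℝ) ≤ 2 * (κ * n) + 1) → R < nm (v - z))
    {Nc : Cfg → ℕ} (hN1 : ∀ ω ω' : Cfg, (∀ v : ℤ × ℤ, R < nm (v - z) → ω v = ω' v) → Nc ω = Nc ω')
    (hN2 : ∀ ω, (bigs D D (κ * n) ω).card ≤ Nc ω) {η : Cfg} {C1 C3 E : ℝ} (hC1 : 0 < C1) (hC3 : 0 < C3)
    (hmom : Ex (2 * Real.cos θ) D η (fun ω => |TPs θ β q D m τ r ω| *
      Real.exp (2 * Real.log M * (Nc ω : ℝ))) ≤
      C1 * Ex (2 * Real.cos θ) D η fun ω => |TPs θ β q D m τ r ω|)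
    (hsm : Ex (2 * Real.cos θ) D η (fun ω => |TPs θ β q D m τ r ω| *
      Real.exp (-(Real.tan θ * Sm h (κ * n) ω)) ^ 2) ≤
      C3 * Ex (2 * Real.cos θ) D η fun ω => |TPs θ β q D m τ r ω|)
    (hlam : Ex (2 * Real.cos θ) D η (fun ω => |TPs θ β q D m τ r ω|) ≤ E) :
    MajY (2 * Real.cos θ) D η (wn θ β q D m (cI θ β τ q m h)) (wn' θ β q D m (cI θ β τ q m h)) z R
      (3 * M * (Real.sqrt C1 * Real.sqrt C3 * E)) := by
  have h1_lt := h1.lt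
  have hQ0 : 0 < 2 * Real.cos θ := h1.kit.pos
  have hκ := H.κn
  have hn' : (0 : ℝ) < n := by have := H.n1; linarith
  have hP := Vale.Agent.P167.N.H852.Q.ZG.ptw (H := H) (m := m) (r := r) hq hD hMf h0 h1 hβ hG hdw hM (by omega) hκr hrk
  have hT := TIn_eq hq hD H h0 h1 hβ hG hS hr0 hrn hrL (by linarith)
  have hY0 : ∀ ω, 0 < YQ M (Real.tan θ) Nc h (κ * n) ω := fun ω => YQ_pos (by linarith) _ _ _ _ _
  have hP0 : ∀ ω, 0 ≤ |TPs θ β q D m τ r ω| * YQ M (Real.tan θ) Nc h (κ * n) ω :=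
    fun ω => mul_nonneg (abs_nonneg _) (hY0 ω).le
  refine ⟨fun ω => 3 * M * (|TPs θ β q D m τ r ω| * YQ M (Real.tan θ) Nc h (κ * n) ω), ?_, ?_, ?_,
    ?_⟩
  · -- the window
    intro ω ω' hw
    have e1 : Nc ω = Nc ω' := hN1 ω ω' hw
    have e2 : Sm h (κ * n) ω = Sm h (κ * n) ω' := Sm_congr H.supp fun v hv => hw v (hwin v hv)
    have e3 : TPs θ β q D m τ r ω = TPs θ β q D m τ r ω' := TPs_congr fun j hj hs v hv _ =>
      hw v (by
        have h3 := hf1 j hj hs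
        have h4 := nm_of_Bq hv
        have h5 := H601.LG.nm_tri' (q (j : ZMod N)) v z
        rw [H601.LG.nm_comm (q (j : ZMod N)) v] at h5
        omega)
    show 3 * M * (|TPs θ β q D m τ r ω| * YQ M (Real.tan θ) Nc h (κ * n) ω) =
      3 * M * (|TPs θ β q D m τ r ω'| * YQ M (Real.tan θ) Nc h (κ * n) ω')
    unfold YQ
    rw [e1, e2, e3]
  · intro ω
    refine (hP.XW_le hN2 ω).trans ?_
    rw [hT]
    exact le_mul_of_one_le_left (hP0 ω) (by linarith)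
  · intro ω A hA hv
    have h2 := hP.TW_le hN2 hA (by
      rintro ⟨j, hj, hs, hin⟩
      obtain ⟨e, he, h3⟩ := hv
      have h4 := hf3 j hj hs
      have h5 := nm_of_Bq (hin e he)
      have h6 := H601.LG.nm_tri' (q (j : ZMod N)) (hdv e) z
      rw [H601.LG.nm_comm (q (j : ZMod N)) (hdv e)] at h6
      omega)
    rwa [hT] at h2
  · -- the moment
    rw [FKA.Ex_mul_left]
    refine mul_le_mul_of_nonneg_left ?_ (by linarith)
    refine (im_mom hQ0 hM2 hC1 hC3 (fun ω => abs_nonneg _) hmom hsm).trans ?_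
    exact mul_le_mul_of_nonneg_left hlam (by positivity)

end

variable {S : CA.Dat} {θ β : ℝ} {f : ℂ → ℝ}

end Vale.Agent.P167.N.H852.Q
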