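import Vale.Agent.P167.N.Kit
import Vale.Agent.P167.N.FKA.All
import Vale.Agent.P167.N.H519.GLim
import Vale.Agent.P167.N.H542.Q.FamB
import Vale.Agent.P167.N.H562.Q.MQ1
import Vale.Agent.P167.N.H852.Q.Y5d
import Vale.Agent.P167.N.H852.Q.Y5e
import Vale.Agent.P167.N.H852.Q.Y4
import Vale.Agent.P167.H852.Q.Y5f

/-! The version of `Vale.Agent.P167.H852.Q.Y5f` for `0 < q < 1`. -/

set_option autoImplicit false

namespace Vale.Agent.P167.N.H852.Q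

open Vale.Agent.P167.H852.Q Vale.Agent.P167.H852

open Finset Filter Topology Relation Vale.Agent.P167.BR Vale.Agent.P167.FK

open Vale.Agent.P167.E6 (IsPolygon Encloses face)

open Vale.Agent.P167.H562.MAJ (Sm)

open Vale.Agent.P167.H562.QM (MajA)

open Vale.Agent.P167.H436 (ero)

open Vale.Agent.P167.H542.Q (BD cB cB_pos)

open Vale.Agent.P167.H718 (Dob wn wn' imC lam lam_pos poly_add encl_add bd_add)

open Vale.Agent.P167.H871 (Bd)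

open Vale.Agent.P167.H601.LG (Spe wJ GeoN SepL nm_of_Bq geoN_enl)

open Vale.Agent.P167.H760.Q (MajY Fp MajI BaseQ JunQ)

open Vale.Agent.P167.CA (cms)

variable {S : CA.Dat} {θ β : ℝ} {f : ℂ → ℝ}

/-- **Majorants of the parity images**, from the two inputs of the block Q-LAM. -/
theorem majI_of (h0 : 0 < θ) (h1 : Ang θ) (hβ : Real.cos (θ / 2 + β) = Real.sin θ)
    (hRSW : RSW (2 * Real.cos θ)) (X : BD S θ β) {s : ℕ → ℕ} (hb : BaseQ X s) {ia : ℕ} {C₀ : ℝ}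
    (hk : JunQ X ia C₀) (hsep : SepE X) (hMm : MomT X) (hLm : LamT X) (hf : S.FF f) :
    MajI X f := by
  have h1_lt := h1.lt
  classical
  intro δ hδ
  have hQ1 : Kit (2 * Real.cos θ) := h1.kit
  have ht0 : 0 ≤ Real.tan θ := (Real.tan_pos_of_pos_of_lt_pi_div_two h0 h1_lt).le
  have hdw := dw_pos h1_lt
  obtain ⟨κ0, Mf, R1, hκ0, hMf0, hR1, hZn⟩ := exists_zn hf
  obtain ⟨ρ1, hρ1, hMm⟩ := hMm
  obtain ⟨ρ2, hρ2, hLm⟩ := hLm
  obtain ⟨cs, hcs, hsep⟩ := hsep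
  obtain ⟨ρ, hρ, r1, r2, r3, r4, r5, r6⟩ : ∃ ρ : ℝ, 0 < ρ ∧ ρ ≤ ρ1 ∧ ρ ≤ ρ2 ∧ ρ ≤ κ0 / 4 ∧
      ρ ≤ δ / 16 ∧ ρ ≤ cs / 8 ∧ ρ ≤ 1 / 8 := by
    refine ⟨min ρ1 (min ρ2 (min (κ0 / 4) (min (δ / 16) (min (cs / 8) (1 / 8))))), by positivity,
      ?_, ?_, ?_, ?_, ?_, ?_⟩ <;> simp
  obtain ⟨κ, hκ, k1, k2, k3, k4⟩ : ∃ κ : ℝ, 0 < κ ∧ κ ≤ ρ / 32 ∧ κ ≤ κ0 / 80 ∧
      κ ≤ 1 / (2 * (Mf + 1)) ∧ κ ≤ dw θ / (Mf + 1) := by
    refine ⟨min (ρ / 32) (min (κ0 / 80) (min (1 / (2 * (Mf + 1))) (dw θ / (Mf + 1)))),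
      by positivity, ?_, ?_, ?_, ?_⟩ <;> simp
  obtain ⟨M, hM2, hM⟩ : ∃ M : ℝ, 2 ≤ M ∧ (cB θ)⁻¹ ≤ M := ⟨max 2 _, le_max_left _ _, le_max_right _ _⟩
  obtain ⟨al, Ca, hal, hCa, hArm, -⟩ := hQ1.arm
  obtain ⟨P, hP⟩ := Vale.Agent.P167.N.H519.exists_lim hQ1 hal hArm
  obtain ⟨C3, ρ0, hC3, hρ0, H3⟩ := Vale.Agent.P167.N.H852.Q.sm_mom hQ1 hRSW hP κ (R1 + 1) Mf
    (Real.tan θ) hκ (by linarith) hMf0 ht0
  obtain ⟨c1, C1, hc1, hC1, H1⟩ := hMm ρ hρ r1 κ (2 * Real.log M) hκ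
    (mul_nonneg (by norm_num) (Real.log_nonneg (by linarith)))
  obtain ⟨C2, hC2, H2⟩ := hLm ρ hρ r2
  refine ⟨min c1 (min (κ0 / 8) (δ / 64)), 3 * M * (Real.sqrt C1 * Real.sqrt C3 * C2),
    by positivity, by positivity, ?_⟩
  have hev : ∀ᶠ n : ℕ in X.L, ρ0 ≤ (n : ℝ) := X.le
    ((eventually_ge_atTop ⌈ρ0⌉₊).mono fun n hn => (Nat.le_ceil ρ0).trans (by exact_mod_cast hn))
  filter_upwards [X.poly, X.enc, (hZn κ0 hκ0 le_rfl κ hκ k2 k3).filter_mono X.le, hev,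
    spe_far X hb hk hδ, hsep, H1, H2] with n hq hD hZ hn hsf hsp H1 H2 z hz R hR a τ hτ η hη
  obtain ⟨Z, hZe⟩ : ∃ Z, Z = ero S.Q n ⌊κ0 * (n : ℝ)⌋ := ⟨_, rfl⟩
  rw [← hZe] at hZ
  obtain ⟨k, hke⟩ : ∃ k, k = ⌊κ0 * (n : ℝ)⌋ := ⟨_, rfl⟩
  rw [← hke] at hZ
  have hn' : (0 : ℝ) < n := by have := hZ.n1; linarith
  have hn0 : 0 < n := by exact_mod_cast hn'
  obtain ⟨r, hr⟩ : ∃ r, r = ⌊ρ * (n : ℝ)⌋ := ⟨_, rfl⟩
  rw [← hr] at H1 H2
  obtain ⟨u1, u2, u3, u4, u5, u6, u7⟩ := num_ok hZ.κn hZ.κ0n hZ.k2 hn' r3 r4 r5 r6 k1 hr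
  have hR1' : (R : ℝ) ≤ c1 * n := hR.trans (mul_le_mul_of_nonneg_right (min_le_left _ _) hn'.le)
  have hR2 : (R : ℝ) ≤ κ0 / 8 * n := hR.trans (mul_le_mul_of_nonneg_right
    ((min_le_right _ _).trans (min_le_left _ _)) hn'.le)
  have hR3 : (R : ℝ) ≤ δ / 64 * n := hR.trans (mul_le_mul_of_nonneg_right
    ((min_le_right _ _).trans (min_le_right _ _)) hn'.le)
  -- the translated domain
  have hqa := poly_add hq (E6.dir a)
  have hDa := encl_add hD (E6.dir a)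
  have hBa := bd_add hτ (E6.dir a)
  have hG : GeoN n (X.N n) (fun i => X.q n i + E6.dir a) τ :=
    geoN_enl S.poly S.enc hn0 hqa hDa hBa
  have hZa := hZ.zg.tr (nm_dir a)
  have hfar : ∀ j < X.N n, Spe τ (X.k n) j →
      δ / 4 * n - 1 < (nm ((fun i => X.q n i + E6.dir a) (j : ZMod (X.N n)) - z) : ℝ) := by
    intro j hj hs
    have h2 := hsf z hz τ hτ j hj hs
    have h3 := nm_tri (X.q n (j : ZMod (X.N n))) (X.q n (j : ZMod (X.N n)) + E6.dir a) z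
    have h4 : (nm (X.q n (j : ZMod (X.N n)) - (X.q n (j : ZMod (X.N n)) + E6.dir a)) : ℝ) ≤ 1 := by
      rw [nm_sub_add]
      exact_mod_cast nm_dir a
    show δ / 4 * n - 1 < (nm (X.q n (j : ZMod (X.N n)) + E6.dir a - z) : ℝ)
    linarith
  obtain ⟨Nc, hN1, hN2, hN3⟩ := H1 a τ hτ z
  have hsm := H3 n hn _ _ _ κ0 k hZa η hη.good
    (fun ω => |TPs θ β (fun i => X.q n i + E6.dir a) ((S.D n).image (· + E6.dir a)) (X.k n) τ r ω|)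
    (fun ω => abs_nonneg _) (fun ω ω' hw => by
      congr 1
      refine TPs_congr fun j hj hs v hv hvD => hw v ?_
      rintro ⟨-, z', hz', h3⟩
      obtain ⟨u, hu, h4⟩ := H562.MAJ.near_site (hZa.supp z' hz')
      have h4' : (nm (z' - u) : ℝ) ≤ 1 := by exact_mod_cast h4
      have h5 := hZa.far_q hqa hDa (r := r) (m := 33 * κ * n + 1) (by
        have e1 := hZ.κ0n
        have e2 := hZ.κn
        have e3 := hZ.k2
        have e4 : ρ * (n : ℝ) ≤ κ0 / 4 * n := mul_le_mul_of_nonneg_right r3 hn'.le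
        have e5 : (r : ℝ) ≤ ρ * n := by rw [hr]; exact Int.floor_le _
        linarith) hu hv
      have h6 := nm_tri v z' u
      linarith) (Real.tan θ) ht0 le_rfl
  have hmaj := Vale.Agent.P167.N.H852.Q.ZG.majY hZa (τ := τ) (m := X.k n) (z := z) (R := R) hMf0 h0 h1 hβ hqa hDa hG
    (hsp τ hτ) (sml_dw hκ hMf0 hn' k3 k4) hM2 hM u1 (by exact_mod_cast u2) (by
      have e1 : cs * (n : ℝ) < ⌊cs * (n : ℝ)⌋₊ + 1 := Nat.lt_floor_add_one _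
      have e2 : ((4 * r : ℤ) : ℝ) < ((⌊cs * (n : ℝ)⌋₊ : ℤ) : ℝ) := by push_cast; linarith
      exact_mod_cast e2) u4 u5
    (fun j hj hs => by
      have e1 := hfar j hj hs
      have e2 : ((3 * R + r : ℤ) : ℝ) <
          (nm ((fun i => X.q n i + E6.dir a) (j : ZMod (X.N n)) - z) : ℝ) := by
        push_cast
        linarith
      exact_mod_cast e2)
    (fun j hj hs => by
      have e1 := hfar j hj hs
      have e2 : ((R + r : ℤ) : ℝ) <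
          (nm ((fun i => X.q n i + E6.dir a) (j : ZMod (X.N n)) - z) : ℝ) := by
        push_cast
        linarith
      exact_mod_cast e2)
    (fun v hv => hZ.win_im hz (by linarith) hR2 (nm_dir a) hv)
    (fun ω ω' hw => hN1 ω ω' fun v hv => hw v (by
      have : (R : ℝ) < nm (v - z) := lt_of_le_of_lt hR1' hv
      exact_mod_cast this)) hN2 hC1 hC3 (hN3 η hη) hsm (H2 a τ hτ η hη)
  have e : 3 * M * (Real.sqrt C1 * Real.sqrt C3 * (C2 * lam θ β (X.q n) (S.D n) (X.k n) (E6.dir a)))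
      = 3 * M * (Real.sqrt C1 * Real.sqrt C3 * C2) * lam θ β (X.q n) (S.D n) (X.k n) (E6.dir a) := by
    ring
  rw [e] at hmaj
  exact hmaj

end Vale.Agent.P167.N.H852.Q
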