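import Vale.Agent.P167.N.Kit
import Vale.Agent.P167.N.H542.Q.FamB
import Vale.Agent.P167.N.H760.Q.Asm
import Vale.Agent.P167.N.H852.Q.Y4
import Vale.Agent.P167.N.H852.Q.Y5f
import Vale.Agent.P167.H852.Q.Neu

/-! The version of `Vale.Agent.P167.H852.Q.Neu` for `0 < q < 1`. -/

set_option autoImplicit false

namespace Vale.Agent.P167.N.H852.Q

open Vale.Agent.P167.H852.Q Vale.Agent.P167.H852

open Finset Filter Topology Vale.Agent.P167.FK

open Vale.Agent.P167.H542.Q (BD)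

open Vale.Agent.P167.H760.Q (TwoAll BaseQ JunQ two_all')

variable {S : CA.Dat} {θ β : ℝ}

/-- **The local input of a Dobrushin family.** -/
theorem twoAll_of (X : BD S θ β) (h0 : 0 < θ) (h1 : Ang θ)
    (hβ : Real.cos (θ / 2 + β) = Real.sin θ) (hRSW : RSW (2 * Real.cos θ)) {s : ℕ → ℕ}
    (hb : BaseQ X s) (hk : JunK X) (hM : MomT X) (hL : LamT X) {f : ℂ → ℝ} (hf : S.FF f) :
    TwoAll (2 * Real.cos θ) S X.L (fun n => (Vale.Agent.P167.N.H542.Q.BD.famB X h0 h1 hβ).H n f) := by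
  have h1_lt := h1.lt
  obtain ⟨ia, C₀, hj⟩ := hk.jun hb
  exact Vale.Agent.P167.N.H760.Q.two_all' X h0 h1 hβ hb hj hf (majN h0 h1 hβ hRSW X hf)
    (majI_of h0 h1 hβ hRSW X hb hj (sepE_of X hb hk) hM hL hf)

end Vale.Agent.P167.N.H852.Q
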